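import Vale.Agent.P300.H49.Pr
import Mathlib.Algebra.BigOperators.Fin
import Mathlib.Data.Fintype.Perm
import Mathlib.Tactic

/-!
# Brackets, cross ratios and cubical coordinates of five points on the line
-/

open Filter Topology Set

namespace Vale.Agent.P300.M05

/-- the bracket of two vectors of `ℂ²` -/
def br (x y : ℂ × ℂ) : ℂ := x.2 * y.1 - x.1 * y.2

theorem br_swap (x y : ℂ × ℂ) : br y x = - br x y := by unfold br; ring

/-- five pairwise independent vectors -/
def Good (w : Fin 5 → ℂ × ℂ) : Prop := ∀ i j, i ≠ j → br (w i) (w j) ≠ 0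

/-- numerator and denominator of the cross ratio `(i j k l) = [ij][kl] / ([ik][jl])` -/
def crN (a : Fin 4 → Fin 5) (w : Fin 5 → ℂ × ℂ) : ℂ := br (w (a 0)) (w (a 1)) * br (w (a 2)) (w (a 3))

def crM (a : Fin 4 → Fin 5) (w : Fin 5 → ℂ × ℂ) : ℂ := br (w (a 0)) (w (a 2)) * br (w (a 1)) (w (a 3))

/-- the cross ratio as a point of the projective line -/
noncomputable def CR (a : Fin 4 → Fin 5) (w : Fin 5 → ℂ × ℂ) : OnePoint ℂ := quo (crN a w) (crM a w)

/-- the five points `0, rs, s, 1, ∞` -/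
def vv (p : ℂ × ℂ) : Fin 5 → ℂ × ℂ := ![(0, 1), (p.1 * p.2, 1), (p.2, 1), (1, 1), (1, 0)]

/-- the five functions `r, s, 1 - r, 1 - s, 1 - rs` -/
def fac (p : ℂ × ℂ) : Fin 5 → ℂ := ![p.1, p.2, 1 - p.1, 1 - p.2, 1 - p.1 * p.2]

/-- exponents of the brackets `[ij]` in the five functions `fac` -/
def ex : Fin 5 → Fin 5 → Fin 5 → ℕ :=
  ![![0, ![1,1,0,0,0], ![0,1,0,0,0], 0, 0],
    ![![1,1,0,0,0], 0, ![0,1,1,0,0], ![0,0,0,0,1], 0],
    ![![0,1,0,0,0], ![0,1,1,0,0], 0, ![0,0,0,1,0], 0],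
    ![0, ![0,0,0,0,1], ![0,0,0,1,0], 0, 0],
    ![0, 0, 0, 0, 0]]

/-- the sign of the bracket `[ij]` -/
def sg (i j : Fin 5) : ℂ := if i < j then 1 else -1

theorem sg_ne (i j : Fin 5) : sg i j ≠ 0 := by unfold sg; split_ifs <;> norm_num

theorem br_vv (p : ℂ × ℂ) (i j : Fin 5) (h : i ≠ j) :
    br (vv p i) (vv p j) = sg i j * ∏ α, fac p α ^ ex i j α := by
  fin_cases i <;> fin_cases j <;>
    first
      | exact absurd rfl h
      | (simp [br, vv, sg, fac, ex, Fin.prod_univ_five]; try ring)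

/-- exponents of numerator and denominator -/
def exN (a : Fin 4 → Fin 5) (α : Fin 5) : ℕ := ex (a 0) (a 1) α + ex (a 2) (a 3) α

def exM (a : Fin 4 → Fin 5) (α : Fin 5) : ℕ := ex (a 0) (a 2) α + ex (a 1) (a 3) α

/-- reduced numerator -/
noncomputable def rN (a : Fin 4 → Fin 5) (p : ℂ × ℂ) : ℂ :=
  sg (a 0) (a 1) * sg (a 2) (a 3) * ∏ α, fac p α ^ (exN a α - exM a α)

/-- reduced denominator -/
noncomputable def rM (a : Fin 4 → Fin 5) (p : ℂ × ℂ) : ℂ :=
  sg (a 0) (a 2) * sg (a 1) (a 3) * ∏ α, fac p α ^ (exM a α - exN a α)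

/-- the cross ratios in the chart -/
noncomputable def cr (a : Fin 4 → Fin 5) (p : ℂ × ℂ) : OnePoint ℂ := quo (rN a p) (rM a p)

theorem cross (a : Fin 4 → Fin 5) (ha : Function.Injective a) (p : ℂ × ℂ) :
    crN a (vv p) * rM a p = rN a p * crM a (vv p) := by
  have h01 : a 0 ≠ a 1 := fun h => by simpa using ha h
  have h23 : a 2 ≠ a 3 := fun h => by simpa using ha h
  have h02 : a 0 ≠ a 2 := fun h => by simpa using ha h
  have h13 : a 1 ≠ a 3 := fun h => by simpa using ha h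
  unfold crN crM rN rM
  rw [br_vv p _ _ h01, br_vv p _ _ h23, br_vv p _ _ h02, br_vv p _ _ h13]
  have e1 : (∏ α, fac p α ^ ex (a 0) (a 1) α) * (∏ α, fac p α ^ ex (a 2) (a 3) α) *
      (∏ α, fac p α ^ (exM a α - exN a α)) =
      (∏ α, fac p α ^ (exN a α - exM a α)) * ((∏ α, fac p α ^ ex (a 0) (a 2) α) *
        (∏ α, fac p α ^ ex (a 1) (a 3) α)) := by
    rw [← Finset.prod_mul_distrib, ← Finset.prod_mul_distrib, ← Finset.prod_mul_distrib,
      ← Finset.prod_mul_distrib]
    refine Finset.prod_congr rfl fun α _ => ?_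
    rw [← pow_add, ← pow_add, ← pow_add, ← pow_add]
    congr 1
    unfold exN exM
    omega
  linear_combination (sg (a 0) (a 1) * sg (a 2) (a 3) * sg (a 0) (a 2) * sg (a 1) (a 3)) * e1

/-- pairs of the five functions that vanish together somewhere besides `(1,1)` -/
def meet (α β : Fin 5) : Bool :=
  (α == 0 && β == 1) || (α == 1 && β == 0) || (α == 0 && β == 3) || (α == 3 && β == 0) ||
  (α == 1 && β == 2) || (α == 2 && β == 1)

theorem eq_of_meet {p : ℂ × ℂ} {α β : Fin 5} (hα : fac p α = 0) (hβ : fac p β = 0) (hne : α ≠ β)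
    (hm : meet α β = false) : p = (1, 1) := by
  obtain ⟨r, s⟩ := p
  fin_cases α <;> fin_cases β <;> simp [fac, meet] at hα hβ hne hm ⊢ <;> grind

/-- numerator and denominator have no common zero off `(1,1)` -/
theorem no_meet : ∀ i j k l : Fin 5, i ≠ j → i ≠ k → i ≠ l → j ≠ k → j ≠ l → k ≠ l →
    ∀ α β : Fin 5, ex i j α + ex k l α > ex i k α + ex j l α →
      ex i k β + ex j l β > ex i j β + ex k l β → meet α β = false := by
  decide +kernel

theorem rN_ne_or {a : Fin 4 → Fin 5} (ha : Function.Injective a) {p : ℂ × ℂ} (hp : p ≠ (1, 1)) :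
    rN a p ≠ 0 ∨ rM a p ≠ 0 := by
  have hne : ∀ i j : Fin 4, i ≠ j → a i ≠ a j := fun i j h h' => h (ha h')
  by_contra hcon
  push Not at hcon
  obtain ⟨h1, h2⟩ := hcon
  unfold rN at h1
  unfold rM at h2
  rw [mul_eq_zero] at h1 h2
  have h1' := h1.resolve_left (mul_ne_zero (sg_ne _ _) (sg_ne _ _))
  have h2' := h2.resolve_left (mul_ne_zero (sg_ne _ _) (sg_ne _ _))
  rw [Finset.prod_eq_zero_iff] at h1' h2'
  obtain ⟨α, -, hα⟩ := h1'
  obtain ⟨β, -, hβ⟩ := h2'
  have hα1 : exN a α > exM a α := by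
    by_contra h
    have : exN a α - exM a α = 0 := by omega
    rw [this] at hα; simp at hα
  have hβ1 : exM a β > exN a β := by
    by_contra h
    have : exM a β - exN a β = 0 := by omega
    rw [this] at hβ; simp at hβ
  have hα0 : fac p α = 0 := (pow_eq_zero_iff (by omega)).mp hα
  have hβ0 : fac p β = 0 := (pow_eq_zero_iff (by omega)).mp hβ
  have hne' : α ≠ β := by rintro rfl; omega
  have hm := no_meet (a 0) (a 1) (a 2) (a 3) (hne _ _ (by decide)) (hne _ _ (by decide))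
    (hne _ _ (by decide)) (hne _ _ (by decide)) (hne _ _ (by decide)) (hne _ _ (by decide)) α β
    hα1 hβ1
  exact hp (eq_of_meet hα0 hβ0 hne' hm)

theorem continuous_fac (α : Fin 5) : Continuous fun p => fac p α := by
  fin_cases α <;> simp [fac] <;> fun_prop

theorem continuous_rN (a : Fin 4 → Fin 5) : Continuous (rN a) := by
  unfold rN
  exact continuous_const.mul (continuous_finsetProd _ fun α _ => (continuous_fac α).pow _)

theorem continuous_rM (a : Fin 4 → Fin 5) : Continuous (rM a) := by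
  unfold rM
  exact continuous_const.mul (continuous_finsetProd _ fun α _ => (continuous_fac α).pow _)

theorem continuousAt_cr {a : Fin 4 → Fin 5} (ha : Function.Injective a) {p : ℂ × ℂ}
    (hp : p ≠ (1, 1)) : ContinuousAt (cr a) p := by
  have h := continuousAt_quo (p := (rN a p, rM a p)) (rN_ne_or ha hp)
  have h2 : ContinuousAt (fun q : ℂ × ℂ => (rN a q, rM a q)) p :=
    ((continuous_rN a).prodMk (continuous_rM a)).continuousAt
  exact ContinuousAt.comp (f := fun q : ℂ × ℂ => (rN a q, rM a q))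
    (g := fun q : ℂ × ℂ => quo q.1 q.2) h h2

/-- the open set where the five functions do not vanish -/
def U0 : Set (ℂ × ℂ) := {p | ∀ α, fac p α ≠ 0}

theorem good_vv {p : ℂ × ℂ} (hp : p ∈ U0) : Good (vv p) := by
  intro i j hij
  rw [br_vv p i j hij]
  exact mul_ne_zero (sg_ne _ _) (Finset.prod_ne_zero_iff.mpr fun α _ => pow_ne_zero _ (hp α))

theorem mem_U0_of_good {p : ℂ × ℂ} (h : Good (vv p)) : p ∈ U0 := by
  have h01 := h 0 1 (by decide)
  have h12 := h 1 2 (by decide)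
  have h13 := h 1 3 (by decide)
  have h23 := h 2 3 (by decide)
  simp [br, vv] at h01 h12 h13 h23
  intro α
  fin_cases α <;> simp [fac] <;> grind

theorem U0_ne {p : ℂ × ℂ} (hp : p ∈ U0) : p ≠ (1, 1) := by
  rintro rfl
  have := hp 2
  simp [fac] at this

theorem CR_vv {a : Fin 4 → Fin 5} (ha : Function.Injective a) {p : ℂ × ℂ} (hp : p ∈ U0) :
    CR a (vv p) = cr a p := by
  have hg := good_vv hp
  have h01 : a 0 ≠ a 1 := fun h => by simpa using ha h
  have h23 : a 2 ≠ a 3 := fun h => by simpa using ha h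
  exact quo_eq_of_mul_eq (cross a ha p) (Or.inl (mul_ne_zero (hg _ _ h01) (hg _ _ h23)))
    (rN_ne_or ha (U0_ne hp))

/-! ### normal form of a configuration -/

/-- the coordinate `r` of a configuration -/
noncomputable def rr (w : Fin 5 → ℂ × ℂ) : ℂ :=
  (br (w 0) (w 1) * br (w 2) (w 4)) / (br (w 0) (w 2) * br (w 1) (w 4))

/-- the coordinate `s` of a configuration -/
noncomputable def ss (w : Fin 5 → ℂ × ℂ) : ℂ :=
  (br (w 0) (w 2) * br (w 3) (w 4)) / (br (w 0) (w 3) * br (w 2) (w 4))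

/-- scaling factors -/
def lam (w : Fin 5 → ℂ × ℂ) (i : Fin 5) : ℂ :=
  if i = 4 then br (w 0) (w 4) * br (w 4) (w 3) else br (w 4) (w i) * br (w 0) (w 3)

theorem lam_ne {w : Fin 5 → ℂ × ℂ} (hw : Good w) (i : Fin 5) : lam w i ≠ 0 := by
  unfold lam
  split_ifs with h
  · exact mul_ne_zero (hw _ _ (by decide)) (hw _ _ (by decide))
  · exact mul_ne_zero (hw _ _ (Ne.symm h)) (hw _ _ (by decide))

/-- the linear change of coordinates -/
def VV (w : Fin 5 → ℂ × ℂ) (x : ℂ × ℂ) : ℂ × ℂ :=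
  (br (w 0) x * br (w 4) (w 3), br (w 4) x * br (w 0) (w 3))

theorem VV_eq {w : Fin 5 → ℂ × ℂ} (hw : Good w) (i : Fin 5) :
    VV w (w i) = (lam w i * (vv (rr w, ss w) i).1, lam w i * (vv (rr w, ss w) i).2) := by
  have h02 := hw 0 2 (by decide)
  have h03 := hw 0 3 (by decide)
  have h14 := hw 1 4 (by decide)
  have h24 := hw 2 4 (by decide)
  fin_cases i
  · simp [VV, lam, vv]
    left; unfold br; ring
  · have e : rr w * ss w = (br (w 0) (w 1) * br (w 3) (w 4)) / (br (w 1) (w 4) * br (w 0) (w 3)) := by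
      unfold rr ss; field_simp
    simp only [VV, lam, vv]
    simp [e]
    rw [br_swap (w 1) (w 4) , br_swap (w 3) (w 4)]
    field_simp
  · simp only [VV, lam, vv]
    simp [ss]
    rw [br_swap (w 2) (w 4), br_swap (w 3) (w 4)]
    field_simp
  · simp [VV, lam, vv]; ring
  · simp [VV, lam, vv]
    left; unfold br; ring

theorem br_VV (w : Fin 5 → ℂ × ℂ) (x y : ℂ × ℂ) :
    br (VV w x) (VV w y) = (br (w 4) (w 3) * br (w 0) (w 3) * br (w 4) (w 0)) * br x y := by
  unfold VV br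
  ring

end Vale.Agent.P300.M05
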