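import Vale.Agent.P300.H49.Space
import Mathlib.Analysis.Normed.Module.Connected
import Mathlib.Geometry.Manifold.IsManifold.Basic
import Mathlib.Analysis.Calculus.ContDiff.Operations
import Mathlib.LinearAlgebra.Complex.FiniteDimensional

/-!
# The compact complex surface `M_{0,5}`-bar
-/

open Filter Topology Set
open scoped Manifold ContDiff

namespace Vale.Agent.P300.M05

/-- the compact surface -/
abbrev YT : Type := ↥(closure UP)

instance : CompactSpace YT := isCompact_iff_compactSpace.mp isClosed_closure.isCompact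

/-- the open part `M_{0,5}` -/
def UY : Set YT := {y | y.1 ∈ UP}

theorem exists_OO (y : YT) : ∃ ν, y.1 ∈ OO ν := by
  obtain ⟨ν, p, hp, h⟩ := mem_iUnion.mp (closure_subset y.2)
  exact ⟨ν, h ▸ psi_mem_OO ν (KK_subset hp)⟩

theorem half_mem_U0 : ((2 : ℂ), (3 : ℂ)) ∈ U0 := by
  intro α
  fin_cases α <;> simp [fac] <;> norm_num

/-- a base point -/
noncomputable def ybase : YT := ⟨psi 1 (2, 3), psi_mem_closure 1 (U0_subset half_mem_U0)⟩

/-- the parametrisation as a map into `YT` (junk value at `(1,1)`) -/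
noncomputable def psiY (ν : Equiv.Perm (Fin 5)) (p : ℂ × ℂ) : YT :=
  open Classical in if h : p ∈ DD then ⟨psi ν p, psi_mem_closure ν h⟩ else ybase

theorem psiY_val (ν : Equiv.Perm (Fin 5)) {p : ℂ × ℂ} (hp : p ∈ DD) : (psiY ν p).1 = psi ν p := by
  simp [psiY, hp]

theorem continuousOn_psiY (ν : Equiv.Perm (Fin 5)) : ContinuousOn (psiY ν) DD := by
  rw [continuousOn_iff_continuous_domRestrict, continuous_induced_rng]
  have h := continuousOn_iff_continuous_domRestrict.mp (continuousOn_psi ν)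
  refine h.congr fun p => ?_
  simp [psiY_val ν p.2]

/-- the charts of `M_{0,5}`-bar -/
noncomputable def chart (ν : Equiv.Perm (Fin 5)) : OpenPartialHomeomorph YT (ℂ × ℂ) where
  toFun y := co ν y.1
  invFun p := psiY ν p
  source := {y | y.1 ∈ OO ν}
  target := DD
  map_source' y hy := hy.2
  map_target' p hp := by
    show (psiY ν p).1 ∈ OO ν
    rw [psiY_val ν hp]; exact psi_mem_OO ν hp
  left_inv' y hy := by
    apply Subtype.ext
    rw [psiY_val ν hy.2]
    exact psi_co ν y.2 hy
  right_inv' p hp := by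
    show co ν (psiY ν p).1 = p
    rw [psiY_val ν hp, co_psi]
  open_source := (isOpen_OO ν).preimage continuous_subtype_val
  open_target := isOpen_DD
  continuousOn_toFun := (continuousOn_co ν).comp continuous_subtype_val.continuousOn fun _ h => h
  continuousOn_invFun := continuousOn_psiY ν

theorem chart_apply (ν : Equiv.Perm (Fin 5)) (y : YT) : chart ν y = co ν y.1 := rfl

theorem chart_symm_apply (ν : Equiv.Perm (Fin 5)) (p : ℂ × ℂ) : (chart ν).symm p = psiY ν p := rfl

theorem chart_source (ν : Equiv.Perm (Fin 5)) : (chart ν).source = {y : YT | y.1 ∈ OO ν} := rfl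

theorem chart_target (ν : Equiv.Perm (Fin 5)) : (chart ν).target = DD := rfl

theorem psiY_injOn (ν : Equiv.Perm (Fin 5)) : InjOn (psiY ν) DD :=
  (chart ν).symm.injOn

theorem psiY_mem_UY (ν : Equiv.Perm (Fin 5)) {p : ℂ × ℂ} (hp : p ∈ DD) :
    psiY ν p ∈ UY ↔ p ∈ U0 := by
  show (psiY ν p).1 ∈ UP ↔ _
  rw [psiY_val ν hp]
  constructor
  · intro h
    rw [UP_eq ν] at h
    obtain ⟨q, hq, he⟩ := h
    have := congrArg (co ν) he
    rw [co_psi, co_psi] at this
    exact this ▸ hq
  · exact psi_mem_UP ν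

theorem UY_eq (ν : Equiv.Perm (Fin 5)) : UY = psiY ν '' U0 := by
  ext y
  constructor
  · intro hy
    obtain ⟨q, hq, he⟩ := (Set.ext_iff.mp (UP_eq ν) y.1).mp hy
    refine ⟨q, hq, Subtype.ext ?_⟩
    rw [psiY_val ν (U0_subset hq), he]
  · rintro ⟨q, hq, rfl⟩
    exact (psiY_mem_UY ν (U0_subset hq)).mpr hq

theorem UY_subset_source (ν : Equiv.Perm (Fin 5)) : UY ⊆ (chart ν).source := by
  rw [UY_eq ν]
  rintro _ ⟨q, hq, rfl⟩
  exact (chart ν).map_target (U0_subset hq)

theorem isOpen_UY : IsOpen UY := by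
  rw [UY_eq 1]
  exact (chart 1).symm.isOpen_image_of_subset_source isOpen_U0 U0_subset

theorem dense_UY : Dense UY := by
  intro y
  rw [closure_subtype]
  have : (Subtype.val '' UY : Set PP) = UP := by
    ext z
    constructor
    · rintro ⟨y, hy, rfl⟩; exact hy
    · intro hz; exact ⟨⟨z, subset_closure hz⟩, hz, rfl⟩
  rw [this]
  exact y.2

instance : ConnectedSpace YT := by
  have hD : IsConnected DD := by
    have : DD = {((1 : ℂ), (1 : ℂ))}ᶜ := rfl
    rw [this]
    refine isConnected_compl_singleton_of_one_lt_rank ?_ _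
    rw [rank_prod', Complex.rank_real_complex]
    norm_num
  have h1 : IsConnected (psi 1 '' DD) := hD.image _ (continuousOn_psi 1)
  have e : closure (psi 1 '' DD) = closure UP := by
    apply Subset.antisymm
    · apply closure_minimal _ isClosed_closure
      rintro _ ⟨p, hp, rfl⟩
      exact psi_mem_closure 1 hp
    · apply closure_mono
      intro y hy
      obtain ⟨q, hq, he⟩ := (Set.ext_iff.mp (UP_eq 1) y).mp hy
      exact ⟨q, U0_subset hq, he⟩
  have h2 : IsConnected (closure UP) := e ▸ h1.closure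
  exact isConnected_iff_connectedSpace.mp h2

/-! ### holomorphic structure -/

theorem contDiff_fac (α : Fin 5) : ContDiff ℂ ω fun p => fac p α := by
  fin_cases α <;> simp [fac] <;> fun_prop

theorem contDiff_rN (a : Fin 4 → Fin 5) : ContDiff ℂ ω (rN a) := by
  unfold rN
  exact contDiff_const.mul (contDiff_prod fun α _ => (contDiff_fac α).pow _)

theorem contDiff_rM (a : Fin 4 → Fin 5) : ContDiff ℂ ω (rM a) := by
  unfold rM
  exact contDiff_const.mul (contDiff_prod fun α _ => (contDiff_fac α).pow _)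

theorem cr_ne_infty {a : Fin 4 → Fin 5} {p : ℂ × ℂ} :
    cr a p ≠ OnePoint.infty ↔ rM a p ≠ 0 := quo_ne_infty

theorem fin_cr {a : Fin 4 → Fin 5} {p : ℂ × ℂ} (h : rM a p ≠ 0) :
    fin (cr a p) = rN a p / rM a p := by
  rw [cr, quo_of_ne h, fin_coe]

theorem contDiffOn_fin_cr (a : Fin 4 → Fin 5) :
    ContDiffOn ℂ ω (fun p => fin (cr a p)) {p | cr a p ≠ OnePoint.infty} := by
  have h : ContDiffOn ℂ ω (fun p => rN a p / rM a p) {p | cr a p ≠ OnePoint.infty} :=
    (contDiff_rN a).contDiffOn.div (contDiff_rM a).contDiffOn fun p hp => cr_ne_infty.mp hp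
  exact h.congr fun p hp => fin_cr (cr_ne_infty.mp hp)

noncomputable instance : ChartedSpace (ℂ × ℂ) YT where
  atlas := range chart
  chartAt y := chart (exists_OO y).choose
  mem_chart_source y := (exists_OO y).choose_spec
  chart_mem_atlas _ := mem_range_self _

theorem mem_atlas_iff {e : OpenPartialHomeomorph YT (ℂ × ℂ)} :
    e ∈ atlas (ℂ × ℂ) YT ↔ ∃ ν, chart ν = e := Iff.rfl

/-- the transition maps -/
theorem trans_contDiffOn (ν μ : Equiv.Perm (Fin 5)) :
    ContDiffOn ℂ ω (fun p => co μ (psi ν p)) {p | p ∈ DD ∧ psi ν p ∈ OO μ} := by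
  refine ContDiffOn.prodMk ?_ ?_
  · exact (contDiffOn_fin_cr _).mono fun p hp => hp.2.1.1
  · exact (contDiffOn_fin_cr _).mono fun p hp => hp.2.1.2

instance : IsManifold 𝓘(ℂ, ℂ × ℂ) ω YT := by
  apply isManifold_of_contDiffOn
  rintro e e' ⟨ν, rfl⟩ ⟨μ, rfl⟩
  simp only [modelWithCornersSelf_coe, modelWithCornersSelf_coe_symm, Function.comp_id,
    Function.id_comp, preimage_id, range_id, inter_univ]
  refine (trans_contDiffOn ν μ).congr_mono (fun p hp => ?_) (fun p hp => ?_)
  · have hp' : p ∈ DD := by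
      have := hp.1; exact this
    show co μ (psiY ν p).1 = _
    rw [psiY_val ν hp']
  · have hp' : p ∈ DD := hp.1
    refine ⟨hp', ?_⟩
    have h2 : psiY ν p ∈ (chart μ).source := hp.2
    have h3 : (psiY ν p).1 ∈ OO μ := h2
    rwa [psiY_val ν hp'] at h3

end Vale.Agent.P300.M05
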