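import Vale.Agent.P300.H49.Brk
import Mathlib.Data.Fin.Tuple.Sort

/-!
# Normal form of a configuration and the covering by compact sets
-/

open Filter Topology Set

namespace Vale.Agent.P300.M05

theorem br_smul (a b : ℂ) (x y : ℂ × ℂ) :
    br (a * x.1, a * x.2) (b * y.1, b * y.2) = a * b * br x y := by
  unfold br; ring

/-- the normal form: brackets of a good configuration and of its cubical coordinates -/
theorem br_norm {w : Fin 5 → ℂ × ℂ} (hw : Good w) (i j : Fin 5) :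
    (br (w 4) (w 3) * br (w 0) (w 3) * br (w 4) (w 0)) * br (w i) (w j) =
      lam w i * lam w j * br (vv (rr w, ss w) i) (vv (rr w, ss w) j) := by
  rw [← br_VV, VV_eq hw, VV_eq hw, br_smul]

theorem cst_ne {w : Fin 5 → ℂ × ℂ} (hw : Good w) :
    (br (w 4) (w 3) * br (w 0) (w 3) * br (w 4) (w 0)) ≠ 0 :=
  mul_ne_zero (mul_ne_zero (hw _ _ (by decide)) (hw _ _ (by decide))) (hw _ _ (by decide))

theorem good_norm {w : Fin 5 → ℂ × ℂ} (hw : Good w) : Good (vv (rr w, ss w)) := by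
  intro i j hij h0
  have h := br_norm hw i j
  rw [h0, mul_zero] at h
  exact mul_ne_zero (cst_ne hw) (hw i j hij) h

theorem mem_U0_norm {w : Fin 5 → ℂ × ℂ} (hw : Good w) : (rr w, ss w) ∈ U0 :=
  mem_U0_of_good (good_norm hw)

theorem CR_norm {w : Fin 5 → ℂ × ℂ} (hw : Good w) {a : Fin 4 → Fin 5} (ha : Function.Injective a) :
    CR a w = cr a (rr w, ss w) := by
  rw [← CR_vv ha (mem_U0_norm hw)]
  set c := (br (w 4) (w 3) * br (w 0) (w 3) * br (w 4) (w 0)) with hc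
  have hc0 : c ≠ 0 := cst_ne hw
  set L := lam w (a 0) * lam w (a 1) * lam w (a 2) * lam w (a 3) with hL
  have hL0 : L ≠ 0 := by
    simp only [hL]
    exact mul_ne_zero (mul_ne_zero (mul_ne_zero (lam_ne hw _) (lam_ne hw _)) (lam_ne hw _))
      (lam_ne hw _)
  have h1 : c ^ 2 * crN a w = L * crN a (vv (rr w, ss w)) := by
    unfold crN
    have e1 := br_norm hw (a 0) (a 1)
    have e2 := br_norm hw (a 2) (a 3)
    rw [← hc] at e1 e2
    calc c ^ 2 * (br (w (a 0)) (w (a 1)) * br (w (a 2)) (w (a 3)))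
        = (c * br (w (a 0)) (w (a 1))) * (c * br (w (a 2)) (w (a 3))) := by ring
      _ = _ := by rw [e1, e2, hL]; ring
  have h2 : c ^ 2 * crM a w = L * crM a (vv (rr w, ss w)) := by
    unfold crM
    have e1 := br_norm hw (a 0) (a 2)
    have e2 := br_norm hw (a 1) (a 3)
    rw [← hc] at e1 e2
    calc c ^ 2 * (br (w (a 0)) (w (a 2)) * br (w (a 1)) (w (a 3)))
        = (c * br (w (a 0)) (w (a 2))) * (c * br (w (a 1)) (w (a 3))) := by ring
      _ = _ := by rw [e1, e2, hL]; ring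
  unfold CR
  rw [← quo_mul (c := c ^ 2) (pow_ne_zero 2 hc0), h1, h2, quo_mul hL0]

theorem Good.comp {w : Fin 5 → ℂ × ℂ} (hw : Good w) (ν : Equiv.Perm (Fin 5)) :
    Good (fun i => w (ν i)) := fun _ _ hij => hw _ _ fun h => hij (ν.injective h)

/-- the compact set `|r|, |s| ≤ 1`, `(r,s)` not near `(1,1)` -/
def KK : Set (ℂ × ℂ) :=
  {p | ‖p.1‖ ≤ 1 ∧ ‖p.2‖ ≤ 1 ∧ (1 / 10 ≤ ‖1 - p.1‖ ∨ 1 / 10 ≤ ‖1 - p.2‖)}

theorem isCompact_KK : IsCompact KK := by
  have h : KK = ((Metric.closedBall (0:ℂ) 1) ×ˢ (Metric.closedBall (0:ℂ) 1)) ∩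
      {p | 1 / 10 ≤ ‖1 - p.1‖ ∨ 1 / 10 ≤ ‖1 - p.2‖} := by
    ext p
    simp [KK, and_assoc]
  rw [h]
  refine ((isCompact_closedBall _ _).prod (isCompact_closedBall _ _)).inter_right ?_
  have c1 : IsClosed {p : ℂ × ℂ | 1 / 10 ≤ ‖1 - p.1‖} := isClosed_le (by fun_prop) (by fun_prop)
  have c2 : IsClosed {p : ℂ × ℂ | 1 / 10 ≤ ‖1 - p.2‖} := isClosed_le (by fun_prop) (by fun_prop)
  exact c1.union c2

theorem KK_ne {p : ℂ × ℂ} (hp : p ∈ KK) : p ≠ (1, 1) := by
  rintro rfl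
  rcases hp with ⟨-, -, h | h⟩ <;> norm_num at h

/-- a labelling with `|r|, |s| ≤ 1` -/
theorem exists_sorted {w : Fin 5 → ℂ × ℂ} (hw : Good w) :
    ∃ ν : Equiv.Perm (Fin 5), ‖rr (fun i => w (ν i))‖ ≤ 1 ∧ ‖ss (fun i => w (ν i))‖ ≤ 1 := by
  set m : Fin 5 → ℝ := fun i => ‖br (w 0) (w i)‖ / ‖br (w i) (w 4)‖ with hm
  -- a permutation fixing `0`, `4` and sorting `1, 2, 3`
  have hex : ∃ ν : Equiv.Perm (Fin 5), ν 0 = 0 ∧ ν 4 = 4 ∧ m (ν 1) ≤ m (ν 2) ∧ m (ν 2) ≤ m (ν 3) := by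
    rcases le_total (m 1) (m 2) with h12 | h12 <;> rcases le_total (m 2) (m 3) with h23 | h23 <;>
      rcases le_total (m 1) (m 3) with h13 | h13
    · exact ⟨1, rfl, rfl, h12, h23⟩
    · exact ⟨1, rfl, rfl, h12, h23⟩
    · exact ⟨Equiv.swap 2 3, by decide, by decide, h13, h23⟩
    · refine ⟨Equiv.swap 1 3 * Equiv.swap 2 3, by decide, by decide, ?_, ?_⟩
      · have e1 : (Equiv.swap 1 3 * Equiv.swap 2 3 : Equiv.Perm (Fin 5)) 1 = 3 := by decide
        have e2 : (Equiv.swap 1 3 * Equiv.swap 2 3 : Equiv.Perm (Fin 5)) 2 = 1 := by decide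
        rw [e1, e2]; exact h13
      · have e1 : (Equiv.swap 1 3 * Equiv.swap 2 3 : Equiv.Perm (Fin 5)) 2 = 1 := by decide
        have e2 : (Equiv.swap 1 3 * Equiv.swap 2 3 : Equiv.Perm (Fin 5)) 3 = 2 := by decide
        rw [e1, e2]; exact h12
    · exact ⟨Equiv.swap 1 2, by decide, by decide, h12, h13⟩
    · refine ⟨Equiv.swap 1 2 * Equiv.swap 2 3, by decide, by decide, ?_, ?_⟩
      · have e1 : (Equiv.swap 1 2 * Equiv.swap 2 3 : Equiv.Perm (Fin 5)) 1 = 2 := by decide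
        have e2 : (Equiv.swap 1 2 * Equiv.swap 2 3 : Equiv.Perm (Fin 5)) 2 = 3 := by decide
        rw [e1, e2]; exact h23
      · have e1 : (Equiv.swap 1 2 * Equiv.swap 2 3 : Equiv.Perm (Fin 5)) 2 = 3 := by decide
        have e2 : (Equiv.swap 1 2 * Equiv.swap 2 3 : Equiv.Perm (Fin 5)) 3 = 1 := by decide
        rw [e1, e2]; exact h13
    · exact ⟨Equiv.swap 1 3, by decide, by decide, h23, h12⟩
    · exact ⟨Equiv.swap 1 3, by decide, by decide, h23, h12⟩
  obtain ⟨ν, h0, h4, h12, h23⟩ := hex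
  refine ⟨ν, ?_, ?_⟩
  · have n1 : ν 1 ≠ 0 := fun h => by simpa using ν.injective (h.trans h0.symm)
    have n2 : ν 2 ≠ 0 := fun h => by simpa using ν.injective (h.trans h0.symm)
    have k1 : ν 1 ≠ 4 := fun h => by simpa using ν.injective (h.trans h4.symm)
    have k2 : ν 2 ≠ 4 := fun h => by simpa using ν.injective (h.trans h4.symm)
    have p02 : 0 < ‖br (w 0) (w (ν 2))‖ := norm_pos_iff.mpr (hw _ _ n2.symm)
    have p14 : 0 < ‖br (w (ν 1)) (w 4)‖ := norm_pos_iff.mpr (hw _ _ k1)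
    have p24 : 0 < ‖br (w (ν 2)) (w 4)‖ := norm_pos_iff.mpr (hw _ _ k2)
    simp only [rr, h0, h4, norm_div, norm_mul]
    rw [div_le_one (mul_pos p02 p14)]
    simp only [hm] at h12
    rwa [div_le_div_iff₀ p14 p24] at h12
  · have n3 : ν 3 ≠ 0 := fun h => by simpa using ν.injective (h.trans h0.symm)
    have k2 : ν 2 ≠ 4 := fun h => by simpa using ν.injective (h.trans h4.symm)
    have k3 : ν 3 ≠ 4 := fun h => by simpa using ν.injective (h.trans h4.symm)
    have p03 : 0 < ‖br (w 0) (w (ν 3))‖ := norm_pos_iff.mpr (hw _ _ n3.symm)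
    have p24 : 0 < ‖br (w (ν 2)) (w 4)‖ := norm_pos_iff.mpr (hw _ _ k2)
    have p34 : 0 < ‖br (w (ν 3)) (w 4)‖ := norm_pos_iff.mpr (hw _ _ k3)
    simp only [ss, h0, h4, norm_div, norm_mul]
    rw [div_le_one (mul_pos p03 p24)]
    simp only [hm] at h23
    rwa [div_le_div_iff₀ p24 p34] at h23

/-- `rr`, `ss` only depend on the brackets up to scaling -/
theorem rr_scale {w v : Fin 5 → ℂ × ℂ} {c : ℂ} {l : Fin 5 → ℂ} (hc : c ≠ 0) (hl : ∀ i, l i ≠ 0)
    (h : ∀ i j, c * br (w i) (w j) = l i * l j * br (v i) (v j)) : rr w = rr v := by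
  have e : ∀ i j, br (w i) (w j) = c⁻¹ * (l i * l j * br (v i) (v j)) := fun i j => by
    rw [← h i j]; field_simp
  unfold rr
  rw [e 0 1, e 2 4, e 0 2, e 1 4]
  have := hl 0; have := hl 1; have := hl 2; have := hl 4
  by_cases h1 : br (v 0) (v 2) = 0
  · simp [h1]
  by_cases h2 : br (v 1) (v 4) = 0
  · simp [h2]
  field_simp

theorem ss_scale {w v : Fin 5 → ℂ × ℂ} {c : ℂ} {l : Fin 5 → ℂ} (hc : c ≠ 0) (hl : ∀ i, l i ≠ 0)
    (h : ∀ i j, c * br (w i) (w j) = l i * l j * br (v i) (v j)) : ss w = ss v := by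
  have e : ∀ i j, br (w i) (w j) = c⁻¹ * (l i * l j * br (v i) (v j)) := fun i j => by
    rw [← h i j]; field_simp
  unfold ss
  rw [e 0 2, e 3 4, e 0 3, e 2 4]
  have := hl 0; have := hl 2; have := hl 3; have := hl 4
  by_cases h1 : br (v 0) (v 3) = 0
  · simp [h1]
  by_cases h2 : br (v 2) (v 4) = 0
  · simp [h2]
  field_simp

/-- every good configuration has a labelling whose coordinates lie in `KK` -/
theorem exists_KK {w : Fin 5 → ℂ × ℂ} (hw : Good w) :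
    ∃ ν : Equiv.Perm (Fin 5), (rr (fun i => w (ν i)), ss (fun i => w (ν i))) ∈ KK := by
  obtain ⟨ν, h1, h2⟩ := exists_sorted hw
  by_cases hK : (1 / 10 ≤ ‖1 - rr (fun i => w (ν i))‖ ∨ 1 / 10 ≤ ‖1 - ss (fun i => w (ν i))‖)
  · exact ⟨ν, h1, h2, hK⟩
  push Not at hK
  obtain ⟨k1, k2⟩ := hK
  set w' : Fin 5 → ℂ × ℂ := fun i => w (ν i) with hw'
  have hg : Good w' := hw.comp ν
  set r := rr w' with hr
  set s := ss w' with hs
  have hU : (r, s) ∈ U0 := mem_U0_norm hg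
  -- relabelled configurations in terms of the normal form
  have key : ∀ σ : Equiv.Perm (Fin 5), rr (fun i => w' (σ i)) = rr (fun i => vv (r, s) (σ i)) ∧
      ss (fun i => w' (σ i)) = ss (fun i => vv (r, s) (σ i)) := fun σ =>
    ⟨rr_scale (cst_ne hg) (l := fun i => lam w' (σ i)) (fun i => lam_ne hg _)
      (fun i j => br_norm hg (σ i) (σ j)),
     ss_scale (cst_ne hg) (l := fun i => lam w' (σ i)) (fun i => lam_ne hg _)
      (fun i j => br_norm hg (σ i) (σ j))⟩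
  have hs1 : (1 - s) ≠ 0 := hU 3
  have hrs1 : (1 - r * s) ≠ 0 := hU 4
  have hbound : ‖1 - r * s‖ ≤ 1 / 5 := by
    have e : 1 - r * s = (1 - r) + r * (1 - s) := by ring
    rw [e]
    calc ‖(1 - r) + r * (1 - s)‖ ≤ ‖1 - r‖ + ‖r‖ * ‖1 - s‖ := by
          rw [← norm_mul]; exact norm_add_le _ _
      _ ≤ 1 / 10 + 1 * (1 / 10) := by
          have : ‖r‖ * ‖1 - s‖ ≤ 1 * (1 / 10) :=
            mul_le_mul h1 k2.le (norm_nonneg _) zero_le_one
          linarith
      _ = 1 / 5 := by norm_num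
  have hfar : ∀ z : ℂ, ‖z‖ ≤ 1 / 5 → 1 / 10 ≤ ‖1 - z‖ := fun z hz => by
    have := norm_sub_norm_le (1 : ℂ) z
    rw [norm_one] at this
    linarith
  rcases le_total ‖1 - r * s‖ ‖1 - s‖ with hle | hle
  · -- labels `3, 1, 2, 0, 4`
    refine ⟨Equiv.swap 0 3 * 1 |>.trans ν, ?_⟩
    have hfun : (fun i => w ((Equiv.swap (0 : Fin 5) 3 * 1).trans ν i)) =
        fun i => w' (Equiv.swap 0 3 i) := by
      funext i; simp [hw']
    rw [hfun, (key _).1, (key _).2]
    have er : rr (fun i => vv (r, s) (Equiv.swap 0 3 i)) = (1 - r * s) / (1 - s) := by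
      have e1 : (Equiv.swap (0 : Fin 5) 3) 0 = 3 := by decide
      have e2 : (Equiv.swap (0 : Fin 5) 3) 1 = 1 := by decide
      have e3 : (Equiv.swap (0 : Fin 5) 3) 2 = 2 := by decide
      have e4 : (Equiv.swap (0 : Fin 5) 3) 4 = 4 := by decide
      simp only [rr, e1, e2, e3, e4]
      simp [br, vv]
      rw [← neg_div_neg_eq]; congr 1 <;> ring
    have es : ss (fun i => vv (r, s) (Equiv.swap 0 3 i)) = 1 - s := by
      have e1 : (Equiv.swap (0 : Fin 5) 3) 0 = 3 := by decide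
      have e2 : (Equiv.swap (0 : Fin 5) 3) 3 = 0 := by decide
      have e3 : (Equiv.swap (0 : Fin 5) 3) 2 = 2 := by decide
      have e4 : (Equiv.swap (0 : Fin 5) 3) 4 = 4 := by decide
      simp only [ss, e1, e2, e3, e4]
      simp [br, vv]
      ring
    rw [er, es]
    refine ⟨?_, ?_, Or.inr ?_⟩
    · rw [norm_div, div_le_one (norm_pos_iff.mpr hs1)]; exact hle
    · linarith [k2]
    · exact hfar _ (by linarith [k2])
  · -- labels `3, 2, 1, 0, 4`
    refine ⟨(Equiv.swap (0 : Fin 5) 3 * Equiv.swap 1 2).trans ν, ?_⟩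
    have hfun : (fun i => w ((Equiv.swap (0 : Fin 5) 3 * Equiv.swap 1 2).trans ν i)) =
        fun i => w' ((Equiv.swap 0 3 * Equiv.swap 1 2 : Equiv.Perm (Fin 5)) i) := by
      funext i; simp [hw']
    rw [hfun, (key _).1, (key _).2]
    have e0 : (Equiv.swap 0 3 * Equiv.swap 1 2 : Equiv.Perm (Fin 5)) 0 = 3 := by decide
    have e1 : (Equiv.swap 0 3 * Equiv.swap 1 2 : Equiv.Perm (Fin 5)) 1 = 2 := by decide
    have e2 : (Equiv.swap 0 3 * Equiv.swap 1 2 : Equiv.Perm (Fin 5)) 2 = 1 := by decide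
    have e3 : (Equiv.swap 0 3 * Equiv.swap 1 2 : Equiv.Perm (Fin 5)) 3 = 0 := by decide
    have e4 : (Equiv.swap 0 3 * Equiv.swap 1 2 : Equiv.Perm (Fin 5)) 4 = 4 := by decide
    have er : rr (fun i => vv (r, s) ((Equiv.swap 0 3 * Equiv.swap 1 2 : Equiv.Perm (Fin 5)) i)) =
        (1 - s) / (1 - r * s) := by
      simp only [rr, e0, e1, e2, e4]
      simp [br, vv]
      rw [← neg_div_neg_eq]; congr 1 <;> ring
    have es : ss (fun i => vv (r, s) ((Equiv.swap 0 3 * Equiv.swap 1 2 : Equiv.Perm (Fin 5)) i)) =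
        1 - r * s := by
      simp only [ss, e0, e2, e3, e4]
      simp [br, vv]
      ring
    rw [er, es]
    refine ⟨?_, ?_, Or.inr ?_⟩
    · rw [norm_div, div_le_one (norm_pos_iff.mpr hrs1)]; exact hle
    · exact hbound.trans (by norm_num)
    · exact hfar _ hbound

end Vale.Agent.P300.M05
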