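import Mathlib.Topology.Compactification.OnePoint.Basic
import Mathlib.Analysis.Complex.Basic

/-!
# The quotient map `ℂ² ∖ 0 → ℙ¹ = OnePoint ℂ`
-/

open Filter Topology Set

namespace Vale.Agent.P300.M05


/-- `[a : b] = a / b` as a point of `OnePoint ℂ`. -/
noncomputable def quo (a b : ℂ) : OnePoint ℂ :=
  if b = 0 then OnePoint.infty else ((a / b : ℂ) : OnePoint ℂ)

theorem quo_of_ne {a b : ℂ} (hb : b ≠ 0) : quo a b = ((a / b : ℂ) : OnePoint ℂ) := by
  simp [quo, hb]

@[simp] theorem quo_zero (a : ℂ) : quo a 0 = OnePoint.infty := by simp [quo]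

theorem quo_ne_infty {a b : ℂ} : quo a b ≠ OnePoint.infty ↔ b ≠ 0 := by
  unfold quo
  split_ifs with h
  · simp [h]
  · simp [h]

theorem quo_mul {c a b : ℂ} (hc : c ≠ 0) : quo (c * a) (c * b) = quo a b := by
  by_cases hb : b = 0
  · simp [hb]
  · rw [quo_of_ne hb, quo_of_ne (mul_ne_zero hc hb), mul_div_mul_left _ _ hc]

/-- two pairs with proportional entries have the same quotient -/
theorem quo_eq_of_mul_eq {a b a' b' : ℂ} (h : a * b' = a' * b) (h1 : a ≠ 0 ∨ b ≠ 0)
    (h2 : a' ≠ 0 ∨ b' ≠ 0) : quo a b = quo a' b' := by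
  by_cases hb : b = 0
  · subst hb
    have ha : a ≠ 0 := by simpa using h1
    have : b' = 0 := by
      have : a * b' = 0 := by simpa using h
      exact (mul_eq_zero.mp this).resolve_left ha
    simp [this]
  · by_cases hb' : b' = 0
    · subst hb'
      have ha' : a' ≠ 0 := by simpa using h2
      have : a' * b = 0 := by simpa using h.symm
      exact absurd ((mul_eq_zero.mp this).resolve_left ha') hb
    · rw [quo_of_ne hb, quo_of_ne hb']
      congr 1
      rw [div_eq_div_iff hb hb', h]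

theorem quo_inj {a b a' b' : ℂ} (hb : b ≠ 0) (hb' : b' ≠ 0) (h : quo a b = quo a' b') :
    a / b = a' / b' := by
  rw [quo_of_ne hb, quo_of_ne hb'] at h
  exact OnePoint.coe_injective h

theorem continuousAt_quo {p : ℂ × ℂ} (hp : p.1 ≠ 0 ∨ p.2 ≠ 0) :
    ContinuousAt (fun q : ℂ × ℂ => quo q.1 q.2) p := by
  by_cases h2 : p.2 = 0
  · -- value `∞`
    have h1 : p.1 ≠ 0 := by simpa [h2] using hp
    have hval : quo p.1 p.2 = OnePoint.infty := by simp [h2]
    show Tendsto (fun q : ℂ × ℂ => quo q.1 q.2) (𝓝 p) (𝓝 (quo p.1 p.2))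
    rw [hval, (OnePoint.hasBasis_nhds_infty (X := ℂ)).tendsto_right_iff]
    rintro K ⟨hKc, hK⟩
    obtain ⟨R, hR⟩ := hK.isBounded.subset_closedBall 0
    -- near `p`, `R * ‖q.2‖ < ‖q.1‖`
    have hev : ∀ᶠ q : ℂ × ℂ in 𝓝 p, |R| * ‖q.2‖ < ‖q.1‖ := by
      have hc1 : Continuous fun q : ℂ × ℂ => |R| * ‖q.2‖ := by fun_prop
      have hc2 : Continuous fun q : ℂ × ℂ => ‖q.1‖ := by fun_prop
      have hlt : |R| * ‖p.2‖ < ‖p.1‖ := by
        rw [h2]; simpa using h1
      exact hc1.continuousAt.eventually_lt hc2.continuousAt hlt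
    filter_upwards [hev] with q hq
    by_cases hq2 : q.2 = 0
    · right; simp [hq2]
    · left
      refine ⟨q.1 / q.2, ?_, (quo_of_ne hq2).symm⟩
      intro hmem
      have := hR hmem
      rw [mem_closedBall_zero_iff, norm_div] at this
      have hpos : 0 < ‖q.2‖ := norm_pos_iff.mpr hq2
      rw [div_le_iff₀ hpos] at this
      have : ‖q.1‖ ≤ |R| * ‖q.2‖ := this.trans (mul_le_mul_of_nonneg_right (le_abs_self R) hpos.le)
      linarith
  · have hev : (fun q : ℂ × ℂ => quo q.1 q.2) =ᶠ[𝓝 p]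
        fun q : ℂ × ℂ => ((q.1 / q.2 : ℂ) : OnePoint ℂ) := by
      have : ∀ᶠ q : ℂ × ℂ in 𝓝 p, q.2 ≠ 0 := continuous_snd.continuousAt.eventually_ne h2
      filter_upwards [this] with q hq
      exact quo_of_ne hq
    rw [continuousAt_congr hev]
    exact OnePoint.continuous_coe.continuousAt.comp
      (continuous_fst.continuousAt.div continuous_snd.continuousAt h2)

/-- the finite value of a point of `OnePoint ℂ` (`0` at `∞`) -/
noncomputable def fin (z : OnePoint ℂ) : ℂ := z.elim 0 id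

@[simp] theorem fin_coe (z : ℂ) : fin (z : OnePoint ℂ) = z := rfl

theorem coe_fin {z : OnePoint ℂ} (hz : z ≠ OnePoint.infty) : ((fin z : ℂ) : OnePoint ℂ) = z := by
  obtain ⟨w, rfl⟩ := OnePoint.ne_infty_iff_exists.mp hz
  rfl

theorem continuousAt_fin {z : OnePoint ℂ} (hz : z ≠ OnePoint.infty) : ContinuousAt fin z := by
  obtain ⟨w, rfl⟩ := OnePoint.ne_infty_iff_exists.mp hz
  rw [OnePoint.continuousAt_coe]
  exact continuousAt_id

theorem isOpen_ne_infty : IsOpen {z : OnePoint ℂ | z ≠ OnePoint.infty} := by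
  simpa [Set.compl_def] using (OnePoint.isClosed_infty (X := ℂ)).isOpen_compl

theorem continuousOn_fin : ContinuousOn fin {z : OnePoint ℂ | z ≠ OnePoint.infty} :=
  fun _ hz => (continuousAt_fin hz).continuousWithinAt

end Vale.Agent.P300.M05
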