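import Vale.Agent.P300.H49.Norm
import Mathlib.Topology.OpenPartialHomeomorph.Basic
import Mathlib.Topology.OpenPartialHomeomorph.Defs
import Mathlib.Topology.OpenPartialHomeomorph.IsImage

/-!
# The compact space `M_{0,5}`-bar as a closure in the product of all cross ratio lines
-/

open Filter Topology Set

namespace Vale.Agent.P300.M05

/-- the cross ratio labels -/
abbrev Idx := {a : Fin 4 → Fin 5 // Function.Injective a}

/-- the ambient compact space -/
abbrev PP := Idx → OnePoint ℂ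

/-- the domain of the charts -/
def DD : Set (ℂ × ℂ) := {p | p ≠ (1, 1)}

theorem isOpen_DD : IsOpen DD := isOpen_ne

theorem KK_subset : KK ⊆ DD := fun _ hp => KK_ne hp

theorem U0_subset : U0 ⊆ DD := fun _ hp => U0_ne hp

theorem isOpen_U0 : IsOpen U0 := by
  have : U0 = ⋂ α, {p | fac p α ≠ 0} := by ext p; simp [U0]
  rw [this]
  exact isOpen_iInter_of_finite fun α => isOpen_ne_fun (continuous_fac α) continuous_const

/-- relabelling -/
def Idx.act (ν : Equiv.Perm (Fin 5)) (a : Idx) : Idx :=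
  ⟨fun i => ν.symm (a.1 i), fun _ _ h => a.2 (ν.symm.injective h)⟩

/-- the parametrisation with the labels `ν 0, …, ν 4` at `0, rs, s, 1, ∞` -/
noncomputable def psi (ν : Equiv.Perm (Fin 5)) (p : ℂ × ℂ) : PP := fun a => cr (a.act ν).1 p

/-- the cross ratios of all good configurations -/
def UP : Set PP := {y | ∃ w, Good w ∧ y = fun a => CR a.1 w}

theorem psi_mem_UP (ν : Equiv.Perm (Fin 5)) {p : ℂ × ℂ} (hp : p ∈ U0) : psi ν p ∈ UP := by
  refine ⟨fun i => vv p (ν.symm i), (good_vv hp).comp ν.symm, ?_⟩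
  funext a
  rw [psi, ← CR_vv (a.act ν).2 hp]
  rfl

/-- coordinates of a configuration in the labelling `ν` -/
noncomputable def cfg (ν : Equiv.Perm (Fin 5)) (w : Fin 5 → ℂ × ℂ) : ℂ × ℂ :=
  (rr (fun i => w (ν i)), ss (fun i => w (ν i)))

theorem cfg_mem {w : Fin 5 → ℂ × ℂ} (hw : Good w) (ν : Equiv.Perm (Fin 5)) : cfg ν w ∈ U0 :=
  mem_U0_norm (hw.comp ν)

theorem psi_cfg {w : Fin 5 → ℂ × ℂ} (hw : Good w) (ν : Equiv.Perm (Fin 5)) :
    psi ν (cfg ν w) = fun a => CR a.1 w := by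
  funext a
  rw [psi]
  have h := CR_norm (hw.comp ν) (a.act ν).2
  rw [cfg, ← h]
  unfold CR crN crM
  simp [Idx.act]

theorem UP_eq (ν : Equiv.Perm (Fin 5)) : UP = psi ν '' U0 := by
  apply Subset.antisymm
  · rintro y ⟨w, hw, rfl⟩
    exact ⟨cfg ν w, cfg_mem hw ν, psi_cfg hw ν⟩
  · rintro y ⟨p, hp, rfl⟩
    exact psi_mem_UP ν hp

theorem exists_KK_of_mem_UP {y : PP} (hy : y ∈ UP) : ∃ ν, ∃ p ∈ KK, psi ν p = y := by
  obtain ⟨w, hw, rfl⟩ := hy
  obtain ⟨ν, hν⟩ := exists_KK hw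
  exact ⟨ν, cfg ν w, hν, psi_cfg hw ν⟩

theorem continuousOn_psi (ν : Equiv.Perm (Fin 5)) : ContinuousOn (psi ν) DD := by
  rw [continuousOn_pi]
  intro a p hp
  exact (continuousAt_cr (a.act ν).2 hp).continuousWithinAt

theorem continuousAt_psi (ν : Equiv.Perm (Fin 5)) {p : ℂ × ℂ} (hp : p ∈ DD) :
    ContinuousAt (psi ν) p := (continuousOn_psi ν).continuousAt (isOpen_DD.mem_nhds hp)

/-! ### the coordinates -/

def ia : Fin 4 → Fin 5 := ![0, 1, 2, 4]

def ib : Fin 4 → Fin 5 := ![0, 2, 3, 4]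

theorem ia_inj : Function.Injective ia := by decide

theorem ib_inj : Function.Injective ib := by decide

def ir (ν : Equiv.Perm (Fin 5)) : Idx := ⟨fun i => ν (ia i), fun _ _ h => ia_inj (ν.injective h)⟩

def is (ν : Equiv.Perm (Fin 5)) : Idx := ⟨fun i => ν (ib i), fun _ _ h => ib_inj (ν.injective h)⟩

theorem cr_ia (p : ℂ × ℂ) : cr ia p = ((p.1 : ℂ) : OnePoint ℂ) := by
  have h1 : rN ia p = p.1 := by
    simp [rN, ia, sg, exN, exM, ex, fac, Fin.prod_univ_five]
  have h2 : rM ia p = 1 := by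
    simp [rM, ia, sg, exN, exM, ex, fac, Fin.prod_univ_five]
  rw [cr, h1, h2, quo_of_ne one_ne_zero, div_one]

theorem cr_ib (p : ℂ × ℂ) : cr ib p = ((p.2 : ℂ) : OnePoint ℂ) := by
  have h1 : rN ib p = p.2 := by
    simp [rN, ib, sg, exN, exM, ex, fac, Fin.prod_univ_five]
  have h2 : rM ib p = 1 := by
    simp [rM, ib, sg, exN, exM, ex, fac]
  rw [cr, h1, h2, quo_of_ne one_ne_zero, div_one]

theorem psi_ir (ν : Equiv.Perm (Fin 5)) (p : ℂ × ℂ) : psi ν p (ir ν) = ((p.1 : ℂ) : OnePoint ℂ) := by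
  have : (Idx.act ν (ir ν)).1 = ia := by funext i; simp [Idx.act, ir]
  rw [psi, this, cr_ia]

theorem psi_is (ν : Equiv.Perm (Fin 5)) (p : ℂ × ℂ) : psi ν p (is ν) = ((p.2 : ℂ) : OnePoint ℂ) := by
  have : (Idx.act ν (is ν)).1 = ib := by funext i; simp [Idx.act, is]
  rw [psi, this, cr_ib]

/-- the inverse of `psi ν` -/
noncomputable def co (ν : Equiv.Perm (Fin 5)) (y : PP) : ℂ × ℂ := (fin (y (ir ν)), fin (y (is ν)))

@[simp] theorem co_psi (ν : Equiv.Perm (Fin 5)) (p : ℂ × ℂ) : co ν (psi ν p) = p := by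
  simp [co, psi_ir, psi_is]

/-- the range of the chart `ν` -/
def OO (ν : Equiv.Perm (Fin 5)) : Set PP :=
  {y | (y (ir ν) ≠ OnePoint.infty ∧ y (is ν) ≠ OnePoint.infty)} ∩ co ν ⁻¹' DD

theorem psi_mem_OO (ν : Equiv.Perm (Fin 5)) {p : ℂ × ℂ} (hp : p ∈ DD) : psi ν p ∈ OO ν := by
  refine ⟨⟨?_, ?_⟩, ?_⟩
  · rw [psi_ir]; exact OnePoint.coe_ne_infty _
  · rw [psi_is]; exact OnePoint.coe_ne_infty _
  · simpa using hp

theorem continuousAt_co (ν : Equiv.Perm (Fin 5)) {y : PP} (h1 : y (ir ν) ≠ OnePoint.infty)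
    (h2 : y (is ν) ≠ OnePoint.infty) : ContinuousAt (co ν) y := by
  refine ContinuousAt.prodMk ?_ ?_
  · exact ContinuousAt.comp (f := fun y : PP => y (ir ν)) (continuousAt_fin h1)
      (continuous_apply _).continuousAt
  · exact ContinuousAt.comp (f := fun y : PP => y (is ν)) (continuousAt_fin h2)
      (continuous_apply _).continuousAt

theorem isOpen_fin2 (ν : Equiv.Perm (Fin 5)) :
    IsOpen {y : PP | (y (ir ν) ≠ OnePoint.infty ∧ y (is ν) ≠ OnePoint.infty)} := by
  have h1 : IsOpen ((fun y : PP => y (ir ν)) ⁻¹' {z | z ≠ OnePoint.infty}) :=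
    isOpen_ne_infty.preimage (continuous_apply (ir ν))
  have h2 : IsOpen ((fun y : PP => y (is ν)) ⁻¹' {z | z ≠ OnePoint.infty}) :=
    isOpen_ne_infty.preimage (continuous_apply (is ν))
  exact h1.inter h2

theorem isOpen_OO (ν : Equiv.Perm (Fin 5)) : IsOpen (OO ν) :=
  ContinuousOn.isOpen_inter_preimage (fun _ hy => (continuousAt_co ν hy.1 hy.2).continuousWithinAt)
    (isOpen_fin2 ν) isOpen_DD

theorem continuousOn_co (ν : Equiv.Perm (Fin 5)) : ContinuousOn (co ν) (OO ν) :=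
  fun _ hy => (continuousAt_co ν hy.1.1 hy.1.2).continuousWithinAt

/-- on the closure the chart is inverted by the coordinates -/
theorem psi_co (ν : Equiv.Perm (Fin 5)) {y : PP} (hy : y ∈ closure UP) (hO : y ∈ OO ν) :
    psi ν (co ν y) = y := by
  have hc : ContinuousAt (fun x => psi ν (co ν x)) y :=
    ContinuousAt.comp (continuousAt_psi ν hO.2) (continuousAt_co ν hO.1.1 hO.1.2)
  have : (𝓝[UP] y).NeBot := mem_closure_iff_nhdsWithin_neBot.mp hy
  have h1 : Tendsto (fun x => psi ν (co ν x)) (𝓝[UP] y) (𝓝 (psi ν (co ν y))) :=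
    hc.tendsto.mono_left nhdsWithin_le_nhds
  have h2 : Tendsto (fun x => psi ν (co ν x)) (𝓝[UP] y) (𝓝 y) := by
    have he : (fun x : PP => x) =ᶠ[𝓝[UP] y] fun x => psi ν (co ν x) := by
      filter_upwards [self_mem_nhdsWithin] with x hx
      rw [UP_eq ν] at hx
      obtain ⟨p, -, rfl⟩ := hx
      simp
    exact Tendsto.congr' he (tendsto_id.mono_left nhdsWithin_le_nhds)
  exact tendsto_nhds_unique h1 h2

/-! ### density of `U0` -/

theorem dense_U0 : Dense U0 := by
  have key : ∀ (f : ℂ × ℂ → ℂ), Continuous f →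
      (∀ p, f p = 0 → ∃ q : ℂ × ℂ, ∀ t : ℂ, t ≠ 0 → f (p + t • q) ≠ 0) →
      Dense {p | f p ≠ 0} ∧ IsOpen {p | f p ≠ 0} := by
    intro f hf hp
    refine ⟨?_, isOpen_ne_fun hf continuous_const⟩
    intro p
    by_cases h0 : f p = 0
    · obtain ⟨q, hq⟩ := hp p h0
      have hc : Tendsto (fun t : ℂ => p + t • q) (𝓝[≠] 0) (𝓝 p) := by
        have : Continuous fun t : ℂ => p + t • q := by fun_prop
        have h := this.tendsto 0
        simp only [zero_smul, add_zero] at h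
        exact h.mono_left nhdsWithin_le_nhds
      refine mem_closure_of_tendsto hc ?_
      filter_upwards [self_mem_nhdsWithin] with t ht
      exact hq t ht
    · exact subset_closure h0
  have hU : U0 = {p : ℂ × ℂ | fac p 0 ≠ 0} ∩ ({p | fac p 1 ≠ 0} ∩ ({p | fac p 2 ≠ 0} ∩
      ({p | fac p 3 ≠ 0} ∩ {p | fac p 4 ≠ 0}))) := by
    ext p
    simp only [U0, mem_ofPred_eq, mem_inter_iff]
    constructor
    · intro h; exact ⟨h 0, h 1, h 2, h 3, h 4⟩
    · rintro ⟨h0, h1, h2, h3, h4⟩ α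
      fin_cases α
      exacts [h0, h1, h2, h3, h4]
  have k0 := key (fun p => fac p 0) (continuous_fac 0) fun p h => ⟨(1, 0), fun t ht => by
    simp [fac] at h ⊢; simpa [h] using ht⟩
  have k1 := key (fun p => fac p 1) (continuous_fac 1) fun p h => ⟨(0, 1), fun t ht => by
    simp [fac] at h ⊢; simpa [h] using ht⟩
  have k2 := key (fun p => fac p 2) (continuous_fac 2) fun p h => ⟨(1, 0), fun t ht => by
    simp [fac] at h ⊢
    intro h'; apply ht; linear_combination h - h'⟩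
  have k3 := key (fun p => fac p 3) (continuous_fac 3) fun p h => ⟨(0, 1), fun t ht => by
    simp [fac] at h ⊢
    intro h'; apply ht; linear_combination h - h'⟩
  have k4 := key (fun p => fac p 4) (continuous_fac 4) fun p h => ⟨(0, 1), fun t ht => by
    simp [fac] at h ⊢
    have hr : p.1 ≠ 0 := by rintro hr; simp [hr] at h
    intro h'
    have : p.1 * t = 0 := by linear_combination h - h'
    rcases mul_eq_zero.mp this with h1 | h1
    · exact hr h1
    · exact ht h1⟩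
  rw [hU]
  refine k0.1.inter_of_isOpen_left ?_ k0.2
  refine k1.1.inter_of_isOpen_left ?_ k1.2
  refine k2.1.inter_of_isOpen_left ?_ k2.2
  exact k3.1.inter_of_isOpen_left k4.1 k3.2

theorem psi_mem_closure (ν : Equiv.Perm (Fin 5)) {p : ℂ × ℂ} (hp : p ∈ DD) :
    psi ν p ∈ closure UP := by
  have : (𝓝[U0] p).NeBot := mem_closure_iff_nhdsWithin_neBot.mp (dense_U0 p)
  have h : Tendsto (psi ν) (𝓝[U0] p) (𝓝 (psi ν p)) :=
    (continuousAt_psi ν hp).tendsto.mono_left nhdsWithin_le_nhds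
  refine mem_closure_of_tendsto h ?_
  filter_upwards [self_mem_nhdsWithin] with x hx
  exact psi_mem_UP ν hx

/-- the closure is covered by the compact sets `psi ν '' KK` -/
theorem closure_subset : closure UP ⊆ ⋃ ν, psi ν '' KK := by
  apply closure_minimal
  · intro y hy
    obtain ⟨ν, p, hp, rfl⟩ := exists_KK_of_mem_UP hy
    exact mem_iUnion.mpr ⟨ν, p, hp, rfl⟩
  · apply isClosed_iUnion_of_finite
    intro ν
    exact (isCompact_KK.image_of_continuousOn ((continuousOn_psi ν).mono KK_subset)).isClosed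

end Vale.Agent.P300.M05
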